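import Mathlib

namespace Vale.Agent.Lib.P256

open MvPolynomial

/-- The directional derivative `D_e p = ∑ i, e i * ∂p/∂x_i` of a real polynomial. -/
noncomputable def dirDeriv {n : ℕ} (e : Fin n → ℝ) (p : MvPolynomial (Fin n) ℝ) :
    MvPolynomial (Fin n) ℝ :=
  ∑ i, C (e i) * pderiv i p

/-- `p` is hyperbolic with respect to `e`: homogeneous, `p e > 0`, and for every real `x`
all complex roots of `t ↦ p (t e - x)` are real. -/
def IsHyperbolic {n : ℕ} (p : MvPolynomial (Fin n) ℝ) (e : Fin n → ℝ) : Prop :=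
  (∃ d : ℕ, p.IsHomogeneous d) ∧ 0 < eval e p ∧
    ∀ (x : Fin n → ℝ) (z : ℂ), aeval (fun i => z * (e i : ℂ) - (x i : ℂ)) p = 0 → z.im = 0

/-- The closed hyperbolicity cone: all roots of `t ↦ p (t e - x)` are nonnegative. -/
def hypCone {n : ℕ} (p : MvPolynomial (Fin n) ℝ) (e : Fin n → ℝ) : Set (Fin n → ℝ) :=
  {x | ∀ t : ℝ, eval (fun i => t * e i - x i) p = 0 → 0 ≤ t}

/-- A spectrahedral shadow in `ℝ^n`: the set of `x` for which some `u` in `ℝ^a` makes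
`A₀ + ∑ x i • A i + ∑ u j • B j` positive semidefinite, all matrices real symmetric of one size. -/
def IsSpectrahedralShadow {n : ℕ} (S : Set (Fin n → ℝ)) : Prop :=
  ∃ (a m : ℕ) (A₀ : Matrix (Fin m) (Fin m) ℝ) (A : Fin n → Matrix (Fin m) (Fin m) ℝ)
    (B : Fin a → Matrix (Fin m) (Fin m) ℝ),
    A₀.IsSymm ∧ (∀ i, (A i).IsSymm) ∧ (∀ j, (B j).IsSymm) ∧
      S = {x | ∃ u : Fin a → ℝ, (A₀ + ∑ i, x i • A i + ∑ j, u j • B j).PosSemidef}

end Vale.Agent.Lib.P256
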