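import Mathlib

namespace Vale.Agent.Lib.P256

open Finset

variable {ι : Type*} [Fintype ι] [DecidableEq ι]

/-- The product `∏ (t - lam j)`. -/
def gpoly (lam : ι → ℝ) (t : ℝ) : ℝ := ∏ j, (t - lam j)

/-- Its derivative `∑_k ∏_{j ≠ k} (t - lam j)`. -/
def dgpoly (lam : ι → ℝ) (t : ℝ) : ℝ := ∑ k, ∏ j ∈ univ.erase k, (t - lam j)

/-- The quadratic form `∑ lam k * v k ^ 2` is nonnegative on the hyperplane `∑ v k = 0`. -/
def FormNonneg (lam : ι → ℝ) : Prop :=
  ∀ v : ι → ℝ, ∑ k, v k = 0 → 0 ≤ ∑ k, lam k * v k ^ 2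

theorem hasDerivAt_gpoly (lam : ι → ℝ) (t : ℝ) :
    HasDerivAt (gpoly lam) (dgpoly lam t) t := by
  have h : ∀ i ∈ (univ : Finset ι), HasDerivAt (fun s : ℝ => s - lam i) 1 t :=
    fun i _ => (hasDerivAt_id t).sub_const (lam i)
  have h2 := HasDerivAt.fun_finsetProd h
  have h3 : (fun s : ℝ => ∏ i, (s - lam i)) = gpoly lam := rfl
  rw [h3] at h2
  have h4 : (∑ i, (∏ j ∈ univ.erase i, (t - lam j)) • (1:ℝ)) = dgpoly lam t := by
    simp [dgpoly]
  rw [h4] at h2
  exact h2

omit [DecidableEq ι] in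
theorem continuous_gpoly (lam : ι → ℝ) : Continuous (gpoly lam) := by
  unfold gpoly
  fun_prop

theorem continuous_dgpoly (lam : ι → ℝ) : Continuous (dgpoly lam) := by
  unfold dgpoly
  fun_prop

omit [DecidableEq ι] in
theorem gpoly_eq_zero_iff (lam : ι → ℝ) (t : ℝ) : gpoly lam t = 0 ↔ ∃ a, lam a = t := by
  unfold gpoly
  rw [Finset.prod_eq_zero_iff]
  constructor
  · rintro ⟨a, -, ha⟩
    exact ⟨a, by linarith⟩
  · rintro ⟨a, ha⟩
    exact ⟨a, mem_univ _, by linarith⟩

/-- At a root `lam a` only one term of the derivative survives. -/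
theorem dgpoly_at_root (lam : ι → ℝ) (a : ι) :
    dgpoly lam (lam a) = ∏ j ∈ univ.erase a, (lam a - lam j) := by
  unfold dgpoly
  refine Finset.sum_eq_single a (fun k _ hk => ?_) (fun h => absurd (mem_univ a) h)
  exact Finset.prod_eq_zero (mem_erase.2 ⟨Ne.symm hk, mem_univ a⟩) (sub_self _)

/-- Away from the roots, the derivative is `g` times the sum of reciprocals. -/
theorem dgpoly_eq_mul_sum (lam : ι → ℝ) (t : ℝ) (h : ∀ j, lam j ≠ t) :
    dgpoly lam t = gpoly lam t * ∑ k, 1 / (t - lam k) := by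
  unfold dgpoly gpoly
  rw [Finset.mul_sum]
  refine Finset.sum_congr rfl fun k _ => ?_
  have hk : t - lam k ≠ 0 := sub_ne_zero.2 (Ne.symm (h k))
  rw [← Finset.mul_prod_erase univ (fun j => t - lam j) (mem_univ k)]
  field_simp

/-- If the form is nonnegative then every root of the derivative is nonnegative. -/
theorem roots_nonneg_of_form [Nonempty ι] (lam : ι → ℝ) (h : FormNonneg lam) :
    ∀ t, dgpoly lam t = 0 → 0 ≤ t := by
  intro t ht
  by_contra hneg
  push Not at hneg
  by_cases hex : ∃ a, lam a = t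
  · obtain ⟨a, ha⟩ := hex
    rw [← ha, dgpoly_at_root, Finset.prod_eq_zero_iff] at ht
    obtain ⟨b, hb, hb0⟩ := ht
    have hba : b ≠ a := (mem_erase.1 hb).1
    have hlb : lam b = lam a := by linarith
    have h1 := h (fun k => (if k = a then 1 else 0) - (if k = b then 1 else 0))
      (by simp [Finset.sum_sub_distrib])
    have hform : ∑ k, lam k * ((if k = a then (1:ℝ) else 0) - (if k = b then 1 else 0)) ^ 2
        = lam a + lam b := by
      have h2 : ∀ k, lam k * ((if k = a then (1:ℝ) else 0) - (if k = b then 1 else 0)) ^ 2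
          = (if k = a then lam k else 0) + (if k = b then lam k else 0) := by
        intro k
        by_cases h3 : k = a
        · subst h3
          simp [Ne.symm hba]
        · by_cases h4 : k = b
          · subst h4
            simp [h3]
          · simp [h3, h4]
      simp [h2, Finset.sum_add_distrib]
    rw [hform] at h1
    linarith
  · push Not at hex
    rw [dgpoly_eq_mul_sum lam t hex] at ht
    have hg : gpoly lam t ≠ 0 := by
      rw [Ne, gpoly_eq_zero_iff]
      push Not
      exact hex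
    have hsum : ∑ k, 1 / (t - lam k) = 0 := by
      rcases mul_eq_zero.1 ht with h1 | h1
      · exact absurd h1 hg
      · exact h1
    have hf := h (fun k => 1 / (t - lam k)) hsum
    have hform : ∑ k, lam k * (1 / (t - lam k)) ^ 2
        = t * ∑ k, (1 / (t - lam k)) ^ 2 - ∑ k, 1 / (t - lam k) := by
      rw [Finset.mul_sum, ← Finset.sum_sub_distrib]
      refine Finset.sum_congr rfl fun k _ => ?_
      have hk : t - lam k ≠ 0 := sub_ne_zero.2 (Ne.symm (hex k))
      field_simp
      ring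
    have hpos : 0 < ∑ k, (1 / (t - lam k)) ^ 2 := by
      apply Finset.sum_pos
      · intro k _
        have hk : t - lam k ≠ 0 := sub_ne_zero.2 (Ne.symm (hex k))
        positivity
      · exact Finset.univ_nonempty
    rw [hform, hsum] at hf
    nlinarith

/-- If every root of the derivative is nonnegative, a negative value of `lam`
forces all other values to be positive. -/
theorem pos_of_neg_of_roots (lam : ι → ℝ) (H : ∀ t, dgpoly lam t = 0 → 0 ≤ t)
    (a b : ι) (hab : a ≠ b) (ha : lam a < 0) : 0 < lam b := by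
  by_contra hb
  push Not at hb
  have hrolle : ∀ lo hi : ℝ, lo < hi → hi ≤ 0 → gpoly lam lo = 0 → gpoly lam hi = 0 → False := by
    intro lo hi hlt hhi h1 h2
    obtain ⟨c, hc, hc0⟩ := exists_hasDerivAt_eq_zero hlt (continuous_gpoly lam).continuousOn
      (h1.trans h2.symm) (fun x _ => hasDerivAt_gpoly lam x)
    have := H c hc0
    have := hc.2
    linarith
  rcases lt_trichotomy (lam a) (lam b) with h | h | h
  · exact hrolle (lam a) (lam b) h hb ((gpoly_eq_zero_iff lam _).2 ⟨a, rfl⟩)
      ((gpoly_eq_zero_iff lam _).2 ⟨b, rfl⟩)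
  · have h0 : dgpoly lam (lam a) = 0 := by
      rw [dgpoly_at_root]
      exact Finset.prod_eq_zero (mem_erase.2 ⟨Ne.symm hab, mem_univ b⟩) (by linarith)
    have := H _ h0
    linarith
  · exact hrolle (lam b) (lam a) h ha.le ((gpoly_eq_zero_iff lam _).2 ⟨b, rfl⟩)
      ((gpoly_eq_zero_iff lam _).2 ⟨a, rfl⟩)

/-- Key bound: one negative value `lam a`, all others positive, all roots of the
derivative nonnegative; then `(-lam a) * ∑_{k ≠ a} 1 / lam k ≤ 1`. -/
theorem key_bound (lam : ι → ℝ) (H : ∀ t, dgpoly lam t = 0 → 0 ≤ t) (a : ι) (ha : lam a < 0)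
    (hpos : ∀ b, b ≠ a → 0 < lam b) :
    (-lam a) * ∑ k ∈ univ.erase a, 1 / lam k ≤ 1 := by
  by_contra hc
  push Not at hc
  set s := ∑ k ∈ univ.erase a, 1 / lam k with hs
  have hs0 : 0 ≤ s := Finset.sum_nonneg fun k hk => by
    have := hpos k (mem_erase.1 hk).1
    positivity
  have hspos : 0 < s := by nlinarith
  set t₁ := lam a + 1 / (2 * s) with ht₁
  have ht₁a : 0 < t₁ - lam a := by
    have : 0 < 1 / (2 * s) := by positivity
    linarith
  have ht₁0 : t₁ < 0 := by
    have : 1 / (2 * s) < -lam a := by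
      rw [div_lt_iff₀ (by positivity)]
      nlinarith
    linarith
  have hne : ∀ t : ℝ, lam a < t → t ≤ 0 → ∀ j, lam j ≠ t := by
    intro t h1 h2 j
    by_cases hj : j = a
    · subst hj
      exact ne_of_lt h1
    · have := hpos j hj
      intro h3
      linarith
  have hd1 := dgpoly_eq_mul_sum lam t₁ (hne t₁ (by linarith) ht₁0.le)
  have hd0 := dgpoly_eq_mul_sum lam 0 (hne 0 ha le_rfl)
  have hsplit : ∀ t : ℝ, ∑ k, 1 / (t - lam k)
      = 1 / (t - lam a) + ∑ k ∈ univ.erase a, 1 / (t - lam k) := fun t =>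
    (Finset.add_sum_erase univ (fun k => 1 / (t - lam k)) (mem_univ a)).symm
  have hphi0 : ∑ k, 1 / ((0:ℝ) - lam k) < 0 := by
    rw [hsplit]
    have h1 : ∑ k ∈ univ.erase a, 1 / ((0:ℝ) - lam k) = -s := by
      rw [hs, ← Finset.sum_neg_distrib]
      refine Finset.sum_congr rfl fun k _ => ?_
      rw [zero_sub, one_div, one_div, inv_neg]
    rw [h1, zero_sub]
    have h2 : 1 / (-lam a) < s := by
      rw [div_lt_iff₀ (by linarith)]
      nlinarith
    linarith
  have hphi1 : 0 < ∑ k, 1 / (t₁ - lam k) := by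
    rw [hsplit]
    have h1 : -s ≤ ∑ k ∈ univ.erase a, 1 / (t₁ - lam k) := by
      rw [hs, ← Finset.sum_neg_distrib]
      refine Finset.sum_le_sum fun k hk => ?_
      have hk0 := hpos k (mem_erase.1 hk).1
      have h3 : t₁ - lam k < 0 := by linarith
      rw [neg_le, ← one_div_neg_eq_neg_one_div, one_div, one_div]
      rw [inv_le_inv₀ (by linarith) hk0]
      linarith
    have h2 : 1 / (t₁ - lam a) = 2 * s := by
      rw [ht₁]
      field_simp
      ring
    linarith
  have hgg : 0 < gpoly lam t₁ * gpoly lam 0 := by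
    unfold gpoly
    rw [← Finset.prod_mul_distrib]
    refine Finset.prod_pos fun j _ => ?_
    by_cases hj : j = a
    · subst hj
      exact mul_pos ht₁a (by linarith)
    · have := hpos j hj
      exact mul_pos_of_neg_of_neg (by linarith) (by linarith)
  have hprod : dgpoly lam t₁ * dgpoly lam 0 < 0 := by
    rw [hd1, hd0]
    have : (gpoly lam t₁ * ∑ k, 1 / (t₁ - lam k)) * (gpoly lam 0 * ∑ k, 1 / ((0:ℝ) - lam k))
        = (gpoly lam t₁ * gpoly lam 0) * ((∑ k, 1 / (t₁ - lam k)) * ∑ k, 1 / ((0:ℝ) - lam k)) := by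
      ring
    rw [this]
    exact mul_neg_of_pos_of_neg hgg (mul_neg_of_pos_of_neg hphi1 hphi0)
  have hmem : (0:ℝ) ∈ Set.uIcc (dgpoly lam t₁) (dgpoly lam 0) := by
    rw [Set.mem_uIcc]
    rcases mul_neg_iff.1 hprod with ⟨h1, h2⟩ | ⟨h1, h2⟩
    · exact Or.inr ⟨h2.le, h1.le⟩
    · exact Or.inl ⟨h1.le, h2.le⟩
  obtain ⟨c, hc, hc0⟩ := intermediate_value_uIcc (continuous_dgpoly lam).continuousOn hmem
  rw [Set.uIcc_of_le ht₁0.le] at hc
  have hc1 := H c hc0
  have hceq : c = 0 := le_antisymm hc.2 hc1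
  rw [hceq] at hc0
  rw [hc0, mul_zero] at hprod
  exact lt_irrefl _ hprod

/-- If every root of the derivative is nonnegative then the form is nonnegative. -/
theorem form_of_roots_nonneg (lam : ι → ℝ) (H : ∀ t, dgpoly lam t = 0 → 0 ≤ t) :
    FormNonneg lam := by
  intro v hv
  by_cases hall : ∀ k, 0 ≤ lam k
  · exact Finset.sum_nonneg fun k _ => mul_nonneg (hall k) (sq_nonneg _)
  · push Not at hall
    obtain ⟨a, ha⟩ := hall
    have hpos : ∀ b, b ≠ a → 0 < lam b := fun b hb =>
      pos_of_neg_of_roots lam H a b (Ne.symm hb) ha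
    have key := key_bound lam H a ha hpos
    set s := ∑ k ∈ univ.erase a, 1 / lam k with hs
    have hva : v a = -∑ k ∈ univ.erase a, v k := by
      have := Finset.add_sum_erase univ v (mem_univ a)
      linarith
    set W := ∑ k ∈ univ.erase a, lam k * v k ^ 2 with hW
    have hW0 : 0 ≤ W := Finset.sum_nonneg fun k hk =>
      mul_nonneg (hpos k (mem_erase.1 hk).1).le (sq_nonneg _)
    have cs : (∑ k ∈ univ.erase a, v k) ^ 2 ≤ s * W := by
      refine Finset.sum_sq_le_sum_mul_sum_of_sq_le_mul (univ.erase a) (fun k hk => ?_)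
        (fun k hk => ?_) (fun k hk => ?_)
      · have := hpos k (mem_erase.1 hk).1
        positivity
      · exact mul_nonneg (hpos k (mem_erase.1 hk).1).le (sq_nonneg _)
      · have := hpos k (mem_erase.1 hk).1
        apply le_of_eq
        field_simp
    have hsplit : ∑ k, lam k * v k ^ 2 = lam a * v a ^ 2 + W :=
      (Finset.add_sum_erase univ (fun k => lam k * v k ^ 2) (mem_univ a)).symm
    rw [hsplit, hva, neg_sq]
    have h1 : (-lam a) * (∑ k ∈ univ.erase a, v k) ^ 2 ≤ (-lam a) * (s * W) :=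
      mul_le_mul_of_nonneg_left cs (by linarith)
    have h2 : (-lam a) * (s * W) ≤ W := by
      have := mul_le_mul_of_nonneg_right key hW0
      linarith
    linarith

/-- Lemma L: all roots of the derivative of `∏ (t - lam j)` are nonnegative exactly when
the form `∑ lam k * v k ^ 2` is nonnegative on `∑ v k = 0`. -/
theorem roots_nonneg_iff_form [Nonempty ι] (lam : ι → ℝ) :
    (∀ t, dgpoly lam t = 0 → 0 ≤ t) ↔ FormNonneg lam :=
  ⟨form_of_roots_nonneg lam, roots_nonneg_of_form lam⟩

end Vale.Agent.Lib.P256
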