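import Mathlib
import Vale.Agent.Lib.P256.RootsDeriv

namespace Vale.Agent.Lib.P256

open Finset Matrix

/-- A set cut out by a homogeneous linear matrix inequality, in quadratic-form wording. -/
def IsLMI {ι : Type} [Fintype ι] (T : Set (ι → ℝ)) : Prop :=
  ∃ (μ : Type) (_ : Fintype μ) (A : ι → Matrix μ μ ℝ),
    (∀ i, (A i).IsSymm) ∧ ∀ z, z ∈ T ↔ ∀ y : μ → ℝ, 0 ≤ ∑ i, z i * (y ⬝ᵥ A i *ᵥ y)

theorem quad_sum_smul {ι μ : Type} [Fintype ι] [Fintype μ] (A : ι → Matrix μ μ ℝ)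
    (z : ι → ℝ) (y : μ → ℝ) :
    y ⬝ᵥ (∑ i, z i • A i) *ᵥ y = ∑ i, z i * (y ⬝ᵥ A i *ᵥ y) := by
  rw [Matrix.sum_mulVec, dotProduct_sum]
  refine Finset.sum_congr rfl fun i _ => ?_
  rw [Matrix.smul_mulVec, dotProduct_smul, smul_eq_mul]

theorem isSymm_sum_smul {ι μ : Type} [Fintype ι] (A : ι → Matrix μ μ ℝ)
    (hA : ∀ i, (A i).IsSymm) (z : ι → ℝ) : (∑ i, z i • A i).IsSymm := by
  unfold Matrix.IsSymm
  rw [Matrix.transpose_sum]
  refine Finset.sum_congr rfl fun i _ => ?_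
  rw [Matrix.transpose_smul, (hA i).eq]

theorem psd_iff_quad {μ : Type} [Fintype μ] (M : Matrix μ μ ℝ) (hM : M.IsSymm) :
    M.PosSemidef ↔ ∀ y : μ → ℝ, 0 ≤ y ⬝ᵥ M *ᵥ y := by
  rw [Matrix.posSemidef_iff_dotProduct_mulVec]
  constructor
  · rintro ⟨-, h⟩ y
    simpa using h y
  · intro h
    refine ⟨?_, fun y => by simpa using h y⟩
    unfold Matrix.IsHermitian
    rw [Matrix.conjTranspose_eq_transpose_of_trivial, hM.eq]

theorem psd_sum_iff {ι μ : Type} [Fintype ι] [Fintype μ] (A : ι → Matrix μ μ ℝ)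
    (hA : ∀ i, (A i).IsSymm) (z : ι → ℝ) :
    (∑ i, z i • A i).PosSemidef ↔ ∀ y : μ → ℝ, 0 ≤ ∑ i, z i * (y ⬝ᵥ A i *ᵥ y) := by
  rw [psd_iff_quad _ (isSymm_sum_smul A hA z)]
  simp only [quad_sum_smul]

theorem quad_fromBlocks {μ₁ μ₂ : Type} [Fintype μ₁] [Fintype μ₂] (A : Matrix μ₁ μ₁ ℝ)
    (B : Matrix μ₂ μ₂ ℝ) (y : μ₁ ⊕ μ₂ → ℝ) :
    y ⬝ᵥ (Matrix.fromBlocks A 0 0 B) *ᵥ y
      = (y ∘ Sum.inl) ⬝ᵥ A *ᵥ (y ∘ Sum.inl) + (y ∘ Sum.inr) ⬝ᵥ B *ᵥ (y ∘ Sum.inr) := by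
  simp [dotProduct, Matrix.mulVec, Fintype.sum_sum_type]

theorem IsLMI.univ {ι : Type} [Fintype ι] : IsLMI (Set.univ : Set (ι → ℝ)) := by
  refine ⟨Empty, inferInstance, fun _ => 0, fun _ => by simp [Matrix.IsSymm], fun z => ?_⟩
  simp

theorem IsLMI.inter {ι : Type} [Fintype ι] {T₁ T₂ : Set (ι → ℝ)} (h₁ : IsLMI T₁)
    (h₂ : IsLMI T₂) : IsLMI (T₁ ∩ T₂) := by
  obtain ⟨μ₁, _, A₁, hA₁, hT₁⟩ := h₁
  obtain ⟨μ₂, _, A₂, hA₂, hT₂⟩ := h₂
  refine ⟨μ₁ ⊕ μ₂, inferInstance, fun i => Matrix.fromBlocks (A₁ i) 0 0 (A₂ i),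
    fun i => ?_, fun z => ?_⟩
  · exact Matrix.IsSymm.fromBlocks (hA₁ i) (by simp) (hA₂ i)
  · simp only [Set.mem_inter_iff, hT₁, hT₂, quad_fromBlocks, mul_add, Finset.sum_add_distrib]
    constructor
    · rintro ⟨h1, h2⟩ y
      exact add_nonneg (h1 _) (h2 _)
    · intro h
      constructor
      · intro y₁
        have := h (Sum.elim y₁ 0)
        simpa using this
      · intro y₂
        have := h (Sum.elim 0 y₂)
        simpa using this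

theorem IsLMI.biInter {ι κ : Type} [Fintype ι] [DecidableEq κ] {T : κ → Set (ι → ℝ)}
    (h : ∀ j, IsLMI (T j)) (s : Finset κ) : IsLMI (⋂ j ∈ s, T j) := by
  induction s using Finset.induction_on with
  | empty => simpa using IsLMI.univ
  | insert a s _ ih =>
    rw [Finset.set_biInter_insert]
    exact (h a).inter ih

theorem IsLMI.iInter {ι κ : Type} [Fintype ι] [Fintype κ] {T : κ → Set (ι → ℝ)}
    (h : ∀ j, IsLMI (T j)) : IsLMI (⋂ j, T j) := by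
  classical
  have := IsLMI.biInter h Finset.univ
  simpa using this

theorem IsLMI.preimage {ι ι' : Type} [Fintype ι] [Fintype ι'] {T : Set (ι → ℝ)}
    (hT : IsLMI T) (f : (ι' → ℝ) →ₗ[ℝ] (ι → ℝ)) : IsLMI (f ⁻¹' T) := by
  classical
  obtain ⟨μ, _, A, hA, hT⟩ := hT
  refine ⟨μ, inferInstance, fun j => ∑ i, f (fun k => if j = k then 1 else 0) i • A i,
    fun j => isSymm_sum_smul A hA _, fun z => ?_⟩
  rw [Set.mem_preimage, hT]
  have hz : ∀ i, f z i = ∑ j, z j * f (fun k => if j = k then 1 else 0) i := by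
    intro i
    conv_lhs => rw [LinearMap.pi_apply_eq_sum_univ f z]
    simp [Finset.sum_apply]
  refine forall_congr' fun y => ?_
  simp only [quad_sum_smul, hz, Finset.sum_mul, Finset.mul_sum]
  rw [Finset.sum_comm]
  simp only [mul_assoc]

end Vale.Agent.Lib.P256
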