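import Mathlib
import Vale.Agent.Lib.P256.Defs
import Vale.Agent.Lib.P256.LMI

namespace Vale.Agent.Lib.P256

open Finset Matrix

/-- The cone `{lam | FormNonneg lam}` is an LMI set. -/
theorem form_isLMI (I : Type) [Fintype I] [DecidableEq I] [Nonempty I] :
    IsLMI {lam : I → ℝ | FormNonneg lam} := by
  set d : ℝ := (Fintype.card I : ℝ) with hd
  have hd0 : 0 < d := by
    rw [hd]
    exact_mod_cast Fintype.card_pos
  refine ⟨I, inferInstance,
    fun k => Matrix.of fun a b => ((if k = a then d else 0) - 1) * ((if k = b then d else 0) - 1),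
    fun k => Matrix.IsSymm.ext fun a b => mul_comm _ _, fun lam => ?_⟩
  have hq : ∀ (k : I) (y : I → ℝ),
      y ⬝ᵥ (Matrix.of fun a b => ((if k = a then d else 0) - 1) * ((if k = b then d else 0) - 1))
        *ᵥ y = (d * y k - ∑ a, y a) ^ 2 := by
    intro k y
    have h1 : ∑ a, ((if k = a then d else 0) - 1) * y a = d * y k - ∑ a, y a := by
      simp [sub_mul, Finset.sum_sub_distrib, ite_mul]
    rw [← h1, sq, Finset.sum_mul_sum]
    simp only [dotProduct, Matrix.mulVec, Matrix.of_apply, Finset.mul_sum]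
    refine Finset.sum_congr rfl fun a _ => Finset.sum_congr rfl fun b _ => ?_
    ring
  simp only [hq, Set.mem_ofPred_eq]
  constructor
  · intro h y
    refine h (fun k => d * y k - ∑ a, y a) ?_
    rw [Finset.sum_sub_distrib, ← Finset.mul_sum, Finset.sum_const, Finset.card_univ,
      nsmul_eq_mul]
    ring
  · intro h v hv
    have h1 := h v
    rw [hv] at h1
    have h2 : ∑ k, lam k * (d * v k - 0) ^ 2 = d ^ 2 * ∑ k, lam k * v k ^ 2 := by
      rw [Finset.mul_sum]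
      refine Finset.sum_congr rfl fun k _ => ?_
      ring
    rw [h2] at h1
    exact nonneg_of_mul_nonneg_right h1 (by positivity)

theorem quad_symm {ν : Type} [Fintype ν] (G : Matrix ν ν ℝ) (hG : G.IsSymm) (x y : ν → ℝ) :
    y ⬝ᵥ G *ᵥ x = x ⬝ᵥ G *ᵥ y := by
  rw [Matrix.dotProduct_mulVec, ← Matrix.mulVec_transpose, hG.eq, dotProduct_comm]

/-- Cauchy-Schwarz for a positive semidefinite symmetric form. -/
theorem quad_cauchy {ν : Type} [Fintype ν] (G : Matrix ν ν ℝ) (hG : G.IsSymm)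
    (hpos : ∀ x : ν → ℝ, 0 ≤ x ⬝ᵥ G *ᵥ x) (x y : ν → ℝ) :
    (x ⬝ᵥ G *ᵥ y) ^ 2 ≤ (x ⬝ᵥ G *ᵥ x) * (y ⬝ᵥ G *ᵥ y) := by
  have h : ∀ t : ℝ, 0 ≤ (y ⬝ᵥ G *ᵥ y) * (t * t) + (2 * (x ⬝ᵥ G *ᵥ y)) * t + x ⬝ᵥ G *ᵥ x := by
    intro t
    have h1 := hpos (x + t • y)
    have h2 : (x + t • y) ⬝ᵥ G *ᵥ (x + t • y)
        = (y ⬝ᵥ G *ᵥ y) * (t * t) + (2 * (x ⬝ᵥ G *ᵥ y)) * t + x ⬝ᵥ G *ᵥ x := by
      rw [Matrix.mulVec_add, Matrix.mulVec_smul, add_dotProduct, dotProduct_add, dotProduct_add,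
        smul_dotProduct, smul_dotProduct, dotProduct_smul, dotProduct_smul, quad_symm G hG x y]
      simp only [smul_eq_mul]
      ring
    rw [h2] at h1
    exact h1
  have h3 := discrim_le_zero h
  unfold discrim at h3
  nlinarith

/-- Second-order-cone type set `{(x, s) | 0 ≤ s ∧ x G x ≤ s ^ 2}` is an LMI set. -/
theorem soc_isLMI {ν : Type} [Fintype ν] (G : Matrix ν ν ℝ) (hG : G.IsSymm)
    (hpos : ∀ x : ν → ℝ, 0 ≤ x ⬝ᵥ G *ᵥ x) :
    IsLMI {z : ν ⊕ Unit → ℝ | 0 ≤ z (Sum.inr ()) ∧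
      (z ∘ Sum.inl) ⬝ᵥ G *ᵥ (z ∘ Sum.inl) ≤ z (Sum.inr ()) ^ 2} := by
  refine ⟨Unit ⊕ ν, inferInstance,
    Sum.elim (fun a => Matrix.fromBlocks 0 (Matrix.of fun _ b => G a b)
      (Matrix.of fun b _ => G a b) 0) (fun _ => Matrix.fromBlocks 1 0 0 G), ?_, fun z => ?_⟩
  · rintro (a | u)
    · exact Matrix.IsSymm.fromBlocks (by simp) (by ext i j; simp [Matrix.transpose_apply])
        (by simp)
    · exact Matrix.IsSymm.fromBlocks (by simp) (by simp) hG
  · have hq : ∀ y : Unit ⊕ ν → ℝ,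
        ∑ i, z i * (y ⬝ᵥ (Sum.elim (fun a => Matrix.fromBlocks 0 (Matrix.of fun _ b => G a b)
          (Matrix.of fun b _ => G a b) 0) (fun _ => Matrix.fromBlocks 1 0 0 G) i :
            Matrix (Unit ⊕ ν) (Unit ⊕ ν) ℝ) *ᵥ y)
        = 2 * y (Sum.inl ()) * ((z ∘ Sum.inl) ⬝ᵥ G *ᵥ (y ∘ Sum.inr))
          + z (Sum.inr ()) * (y (Sum.inl ()) ^ 2 + (y ∘ Sum.inr) ⬝ᵥ G *ᵥ (y ∘ Sum.inr)) := by
      intro y
      rw [Fintype.sum_sum_type]
      simp only [Sum.elim_inl, Sum.elim_inr, Finset.univ_unique, Finset.sum_singleton,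
        PUnit.default_eq_unit]
      have h1 : ∀ a : ν, y ⬝ᵥ (Matrix.fromBlocks 0 (Matrix.of fun _ b => G a b)
          (Matrix.of fun b _ => G a b) 0 : Matrix (Unit ⊕ ν) (Unit ⊕ ν) ℝ) *ᵥ y
          = 2 * y (Sum.inl ()) * (G *ᵥ (y ∘ Sum.inr)) a := by
        intro a
        simp [dotProduct, Matrix.mulVec, Fintype.sum_sum_type, Finset.mul_sum]
        rw [← Finset.sum_add_distrib]
        refine Finset.sum_congr rfl fun b _ => ?_
        ring
      have h2 : y ⬝ᵥ (Matrix.fromBlocks 1 0 0 G : Matrix (Unit ⊕ ν) (Unit ⊕ ν) ℝ) *ᵥ y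
          = y (Sum.inl ()) ^ 2 + (y ∘ Sum.inr) ⬝ᵥ G *ᵥ (y ∘ Sum.inr) := by
        rw [quad_fromBlocks]
        simp [dotProduct, Matrix.mulVec, sq]
      simp only [h1, h2]
      congr 1
      simp only [dotProduct, Function.comp, Finset.mul_sum]
      refine Finset.sum_congr rfl fun a _ => ?_
      ring
    simp only [hq, Set.mem_ofPred_eq]
    set s := z (Sum.inr ()) with hs
    set x := z ∘ Sum.inl with hx
    constructor
    · rintro ⟨hs0, hq0⟩ y
      set τ := y (Sum.inl ()) with hτ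
      set y' := y ∘ Sum.inr with hy'
      have hr := hpos y'
      have hcs := quad_cauchy G hG hpos x y'
      have hqx := hpos x
      have h1 : (x ⬝ᵥ G *ᵥ y') ^ 2 ≤ s ^ 2 * (y' ⬝ᵥ G *ᵥ y') := by
        nlinarith [mul_le_mul_of_nonneg_right hq0 hr]
      rcases hs0.eq_or_lt with h0 | h0
      · have hc : x ⬝ᵥ G *ᵥ y' = 0 := by
          rw [← h0] at h1
          nlinarith
        rw [hc, ← h0]
        simp
      · have h2 : 0 ≤ s * (2 * τ * (x ⬝ᵥ G *ᵥ y') + s * (τ ^ 2 + y' ⬝ᵥ G *ᵥ y')) := by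
          nlinarith [sq_nonneg (s * τ + x ⬝ᵥ G *ᵥ y')]
        exact nonneg_of_mul_nonneg_right h2 h0
    · intro h
      have hs0 : 0 ≤ s := by
        have := h (Sum.elim (fun _ => 1) 0)
        simpa using this
      refine ⟨hs0, ?_⟩
      have key : ∀ τ : ℝ, 0 ≤ -(2 * τ * (x ⬝ᵥ G *ᵥ x)) + s * (τ ^ 2 + x ⬝ᵥ G *ᵥ x) := by
        intro τ
        have := h (Sum.elim (fun _ => τ) (-x))
        simpa [Matrix.mulVec_neg] using this
      rcases hs0.eq_or_lt with h0 | h0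
      · have := key 1
        rw [← h0] at this ⊢
        nlinarith
      · have := key s
        nlinarith

end Vale.Agent.Lib.P256
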