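import Mathlib
import Vale.Agent.Lib.P256.RootsDeriv

namespace Vale.Agent.Lib.P256

open Finset

variable {ι : Type*} [Fintype ι] [DecidableEq ι]

/-- The complex product `∏ (z - lam j)` with real `lam`. -/
def cgpoly (lam : ι → ℝ) (z : ℂ) : ℂ := ∏ j, (z - (lam j : ℂ))

/-- Its derivative. -/
def cdgpoly (lam : ι → ℝ) (z : ℂ) : ℂ := ∑ k, ∏ j ∈ univ.erase k, (z - (lam j : ℂ))

theorem hasDerivAt_cgpoly (lam : ι → ℝ) (z : ℂ) :
    HasDerivAt (cgpoly lam) (cdgpoly lam z) z := by
  have h : ∀ i ∈ (univ : Finset ι), HasDerivAt (fun s : ℂ => s - (lam i : ℂ)) 1 z :=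
    fun i _ => (hasDerivAt_id z).sub_const _
  have h2 := HasDerivAt.fun_finsetProd h
  have h3 : (fun s : ℂ => ∏ i, (s - (lam i : ℂ))) = cgpoly lam := rfl
  rw [h3] at h2
  have h4 : (∑ i, (∏ j ∈ univ.erase i, (z - (lam j : ℂ))) • (1 : ℂ)) = cdgpoly lam z := by
    simp [cdgpoly]
  rw [h4] at h2
  exact h2

/-- The derivative of a product of real linear factors has no non-real zero. -/
theorem cdgpoly_ne_zero [Nonempty ι] (lam : ι → ℝ) (z : ℂ) (hz : z.im ≠ 0) :
    cdgpoly lam z ≠ 0 := by
  have hne : ∀ k, z - (lam k : ℂ) ≠ 0 := by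
    intro k h
    have := congrArg Complex.im h
    simp at this
    exact hz this
  have hform : cdgpoly lam z = cgpoly lam z * ∑ k, 1 / (z - (lam k : ℂ)) := by
    unfold cdgpoly cgpoly
    rw [Finset.mul_sum]
    refine Finset.sum_congr rfl fun k _ => ?_
    rw [← Finset.mul_prod_erase univ (fun j => z - (lam j : ℂ)) (mem_univ k)]
    have := hne k
    field_simp
  rw [hform]
  refine mul_ne_zero (Finset.prod_ne_zero_iff.2 fun k _ => hne k) ?_
  intro hsum
  have him := congrArg Complex.im hsum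
  rw [Complex.im_sum] at him
  have hterm : ∀ k, (1 / (z - (lam k : ℂ))).im = -z.im / Complex.normSq (z - (lam k : ℂ)) := by
    intro k
    rw [one_div, Complex.inv_im]
    simp
  simp only [hterm, Complex.zero_im] at him
  have hpos : 0 < ∑ k, 1 / Complex.normSq (z - (lam k : ℂ)) := by
    apply Finset.sum_pos
    · intro k _
      have := Complex.normSq_pos.2 (hne k)
      positivity
    · exact Finset.univ_nonempty
  have hfac : ∑ k, -z.im / Complex.normSq (z - (lam k : ℂ))
      = -z.im * ∑ k, 1 / Complex.normSq (z - (lam k : ℂ)) := by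
    rw [Finset.mul_sum]
    exact Finset.sum_congr rfl fun k _ => by ring
  rw [hfac] at him
  rcases mul_eq_zero.1 him with h1 | h1
  · exact hz (by linarith)
  · linarith

end Vale.Agent.Lib.P256
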