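import Mathlib
import Vale.Agent.Lib.P256.Basic

namespace Vale.Agent.Lib.P256

open Finset Matrix

/-- Projection of an LMI set along the last block of variables is a spectrahedral shadow. -/
theorem shadow_of_isLMI {n a : ℕ} (T : Set (Fin n ⊕ Fin a → ℝ)) (hT : IsLMI T) :
    IsSpectrahedralShadow {x : Fin n → ℝ | ∃ w : Fin a → ℝ, Sum.elim x w ∈ T} := by
  classical
  obtain ⟨μ, _, A, hA, hT⟩ := hT
  let eqv : μ ≃ Fin (Fintype.card μ) := Fintype.equivFin μ
  refine ⟨a, Fintype.card μ, 0, fun i => (A (Sum.inl i)).submatrix eqv.symm eqv.symm,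
    fun j => (A (Sum.inr j)).submatrix eqv.symm eqv.symm, by simp [Matrix.IsSymm],
    fun i => (hA _).submatrix _, fun j => (hA _).submatrix _, ?_⟩
  ext x
  simp only [Set.mem_ofPred_eq]
  refine exists_congr fun w => ?_
  rw [hT]
  have hmat : (0 + ∑ i, x i • (A (Sum.inl i)).submatrix eqv.symm eqv.symm
      + ∑ j, w j • (A (Sum.inr j)).submatrix eqv.symm eqv.symm)
      = (∑ i, (Sum.elim x w) i • A i).submatrix eqv.symm eqv.symm := by
    rw [Fintype.sum_sum_type]
    ext p q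
    simp [Matrix.sum_apply, Matrix.add_apply]
  rw [hmat, Matrix.posSemidef_submatrix_equiv, psd_sum_iff A hA]

/-- Index type of the roots: two for each quadratic factor, one for each linear factor. -/
abbrev EigIdx (k m : ℕ) : Type := (Fin k × Bool) ⊕ Fin m

/-- The sign attached to a Boolean. -/
noncomputable def sgn (b : Bool) : ℝ := if b then 1 else -1

/-- Roots with centres `a`, free radii `w` and linear roots `b`. -/
noncomputable def eigOf {k m : ℕ} (a : Fin k → ℝ) (w : Fin k → ℝ) (b : Fin m → ℝ) : EigIdx k m → ℝ :=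
  Sum.elim (fun p => a p.1 + sgn p.2 * w p.1) b

theorem sum_eigIdx {k m : ℕ} (f : EigIdx k m → ℝ) :
    ∑ i, f i = ∑ i, (f (Sum.inl (i, true)) + f (Sum.inl (i, false))) + ∑ j, f (Sum.inr j) := by
  rw [Fintype.sum_sum_type, Fintype.sum_prod_type]
  simp only [Fintype.sum_bool]

/-- Enlarging the radii: if the form is nonnegative for radii `w ≥ u ≥ 0`, it is for `u`. -/
theorem form_lift {k m : ℕ} (a : Fin k → ℝ) (b : Fin m → ℝ) (u w : Fin k → ℝ)
    (hu : ∀ i, 0 ≤ u i) (huw : ∀ i, u i ≤ w i) (h : FormNonneg (eigOf a w b)) :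
    FormNonneg (eigOf a u b) := by
  intro v hv
  set v' : EigIdx k m → ℝ := Sum.elim
    (fun p => if v (Sum.inl (p.1, false)) ^ 2 < v (Sum.inl (p.1, true)) ^ 2
      then v (Sum.inl (p.1, !p.2)) else v (Sum.inl p)) (fun j => v (Sum.inr j)) with hv'
  have hsum : ∑ i, v' i = 0 := by
    rw [← hv, sum_eigIdx, sum_eigIdx]
    congr 1
    refine Finset.sum_congr rfl fun i _ => ?_
    simp only [hv', Sum.elim_inl, Bool.not_true, Bool.not_false]
    split_ifs
    · ring
    · ring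
  have h1 := h v' hsum
  refine le_trans h1 ?_
  rw [sum_eigIdx, sum_eigIdx]
  refine add_le_add (Finset.sum_le_sum fun i _ => ?_) (le_of_eq ?_)
  · simp only [hv', eigOf, sgn, Sum.elim_inl, Bool.not_true, Bool.not_false, if_true,
      Bool.false_eq_true, if_false]
    have h2 := hu i
    have h3 := huw i
    split_ifs with hc
    · nlinarith [mul_nonneg h2 (sub_nonneg.2 hc.le), mul_nonneg (sub_nonneg.2 h3)
        (sub_nonneg.2 hc.le)]
    · have hc' : v (Sum.inl (i, true)) ^ 2 ≤ v (Sum.inl (i, false)) ^ 2 := not_lt.1 hc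
      nlinarith [mul_nonneg (sub_nonneg.2 h3) (sub_nonneg.2 hc')]
  · refine Finset.sum_congr rfl fun j _ => ?_
    simp [hv', eigOf]

/-- Linear map `(x, w) ↦ (x, α * w i)`. -/
noncomputable def socMap {n k : ℕ} (α : ℝ) (i : Fin k) : (Fin n ⊕ Fin k → ℝ) →ₗ[ℝ] (Fin n ⊕ Unit → ℝ) where
  toFun z := Sum.elim (fun a => z (Sum.inl a)) (fun _ => α * z (Sum.inr i))
  map_add' z z' := by
    ext (a | u)
    · simp
    · simp [mul_add]
  map_smul' r z := by
    ext (a | u)
    · simp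
    · simp [mul_left_comm]

/-- Linear map `(x, w) ↦` roots, for centres `bv i ⬝ᵥ x / α i` and linear roots
`c j ⬝ᵥ x / ε j`. -/
noncomputable def eigMap {n k m : ℕ} (α : Fin k → ℝ) (bv : Fin k → Fin n → ℝ) (ε : Fin m → ℝ)
    (c : Fin m → Fin n → ℝ) : (Fin n ⊕ Fin k → ℝ) →ₗ[ℝ] (EigIdx k m → ℝ) where
  toFun z := eigOf (fun i => (∑ a, bv i a * z (Sum.inl a)) / α i) (fun i => z (Sum.inr i))
    (fun j => (∑ a, c j a * z (Sum.inl a)) / ε j)
  map_add' z z' := by
    ext (p | j)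
    · simp only [eigOf, Sum.elim_inl, Pi.add_apply, mul_add, Finset.sum_add_distrib, add_div]
      ring
    · simp only [eigOf, Sum.elim_inr, Pi.add_apply, mul_add, Finset.sum_add_distrib, add_div]
  map_smul' r z := by
    ext (p | j)
    · simp only [eigOf, Sum.elim_inl, Pi.smul_apply, smul_eq_mul, RingHom.id_apply]
      have : ∑ a, bv p.1 a * (r * z (Sum.inl a)) = r * ∑ a, bv p.1 a * z (Sum.inl a) := by
        rw [Finset.mul_sum]
        exact Finset.sum_congr rfl fun a _ => by ring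
      rw [this]
      ring
    · simp only [eigOf, Sum.elim_inr, Pi.smul_apply, smul_eq_mul, RingHom.id_apply]
      have : ∑ a, c j a * (r * z (Sum.inl a)) = r * ∑ a, c j a * z (Sum.inl a) := by
        rw [Finset.mul_sum]
        exact Finset.sum_congr rfl fun a _ => by ring
      rw [this]
      ring

/-- Core statement: the set where the form of the roots is nonnegative is a shadow. -/
theorem core_shadow {n k m : ℕ} [Nonempty (EigIdx k m)] (α : Fin k → ℝ) (hα : ∀ i, 0 < α i)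
    (bv : Fin k → Fin n → ℝ) (G : Fin k → Matrix (Fin n) (Fin n) ℝ) (hG : ∀ i, (G i).IsSymm)
    (hGpos : ∀ i (x : Fin n → ℝ), 0 ≤ x ⬝ᵥ G i *ᵥ x) (ε : Fin m → ℝ) (c : Fin m → Fin n → ℝ) :
    IsSpectrahedralShadow {x : Fin n → ℝ |
      FormNonneg (eigOf (fun i => (∑ a, bv i a * x a) / α i)
        (fun i => Real.sqrt (x ⬝ᵥ G i *ᵥ x) / α i) (fun j => (∑ a, c j a * x a) / ε j))} := by
  classical
  set T : Set (Fin n ⊕ Fin k → ℝ) :=
    (⋂ i : Fin k, (socMap (α i) i) ⁻¹' {z : Fin n ⊕ Unit → ℝ | 0 ≤ z (Sum.inr ()) ∧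
      (z ∘ Sum.inl) ⬝ᵥ G i *ᵥ (z ∘ Sum.inl) ≤ z (Sum.inr ()) ^ 2})
    ∩ (eigMap α bv ε c) ⁻¹' {lam : EigIdx k m → ℝ | FormNonneg lam} with hT
  have hLMI : IsLMI T :=
    (IsLMI.iInter fun i => (soc_isLMI (G i) (hG i) (hGpos i)).preimage _).inter
      ((form_isLMI (EigIdx k m)).preimage _)
  have hset : {x : Fin n → ℝ |
      FormNonneg (eigOf (fun i => (∑ a, bv i a * x a) / α i)
        (fun i => Real.sqrt (x ⬝ᵥ G i *ᵥ x) / α i) (fun j => (∑ a, c j a * x a) / ε j))}
      = {x : Fin n → ℝ | ∃ w : Fin k → ℝ, Sum.elim x w ∈ T} := by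
    ext x
    simp only [Set.mem_ofPred_eq, hT, Set.mem_inter_iff, Set.mem_iInter, Set.mem_preimage]
    have hsoc : ∀ (w : Fin k → ℝ) (i : Fin k),
        (0 ≤ (socMap (α i) i (Sum.elim x w)) (Sum.inr ()) ∧
          ((socMap (α i) i (Sum.elim x w)) ∘ Sum.inl) ⬝ᵥ G i *ᵥ
            ((socMap (α i) i (Sum.elim x w)) ∘ Sum.inl)
            ≤ (socMap (α i) i (Sum.elim x w)) (Sum.inr ()) ^ 2)
          ↔ Real.sqrt (x ⬝ᵥ G i *ᵥ x) / α i ≤ w i := by
      intro w i
      have h1 : (socMap (α i) i (Sum.elim x w)) ∘ Sum.inl = x := by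
        ext a
        simp [socMap]
      have h2 : (socMap (α i) i (Sum.elim x w)) (Sum.inr ()) = α i * w i := by
        simp [socMap]
      rw [h1, h2, div_le_iff₀ (hα i), Real.sqrt_le_iff, mul_comm (w i)]
    have heig : ∀ w : Fin k → ℝ, eigMap α bv ε c (Sum.elim x w)
        = eigOf (fun i => (∑ a, bv i a * x a) / α i) w (fun j => (∑ a, c j a * x a) / ε j) := by
      intro w
      simp [eigMap]
    simp only [hsoc, heig]
    constructor
    · intro h
      exact ⟨_, fun i => le_rfl, h⟩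
    · rintro ⟨w, hw, h⟩
      exact form_lift _ _ _ w (fun i => div_nonneg (Real.sqrt_nonneg _) (hα i).le) hw h
  rw [hset]
  exact shadow_of_isLMI T hLMI

end Vale.Agent.Lib.P256
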