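import Mathlib
import Vale.Agent.Lib.P256.Defs

namespace Vale.Agent.Lib.P256

open Finset MvPolynomial

theorem dirDeriv_C {n : ℕ} (e : Fin n → ℝ) (a : ℝ) : dirDeriv e (C a) = 0 := by
  simp [dirDeriv]

theorem dirDeriv_add {n : ℕ} (e : Fin n → ℝ) (p q : MvPolynomial (Fin n) ℝ) :
    dirDeriv e (p + q) = dirDeriv e p + dirDeriv e q := by
  simp [dirDeriv, mul_add, Finset.sum_add_distrib]

theorem dirDeriv_mul_X {n : ℕ} (e : Fin n → ℝ) (p : MvPolynomial (Fin n) ℝ) (i : Fin n) :
    dirDeriv e (p * X i) = dirDeriv e p * X i + p * C (e i) := by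
  unfold dirDeriv
  simp only [pderiv_mul, mul_add, Finset.sum_add_distrib]
  congr 1
  · rw [Finset.sum_mul]
    exact Finset.sum_congr rfl fun j _ => by ring
  · rw [Finset.sum_eq_single i]
    · rw [pderiv_X_self]
      ring
    · intro j _ hj
      rw [pderiv_X_of_ne (Ne.symm hj)]
      ring
    · intro h
      exact absurd (mem_univ i) h

/-- Chain rule along the line `s ↦ s e - x`. -/
theorem hasDerivAt_line {n : ℕ} (e x : Fin n → ℝ) (p : MvPolynomial (Fin n) ℝ) (t : ℝ) :
    HasDerivAt (fun s : ℝ => eval (fun i => s * e i - x i) p)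
      (eval (fun i => t * e i - x i) (dirDeriv e p)) t := by
  induction p using MvPolynomial.induction_on with
  | C a =>
    simp only [dirDeriv_C, eval_C, map_zero]
    exact hasDerivAt_const t a
  | add p q hp hq =>
    simp only [dirDeriv_add, map_add]
    exact hp.add hq
  | mul_X p i hp =>
    have h1 : HasDerivAt (fun s : ℝ => s * e i - x i) (e i) t := by
      simpa using ((hasDerivAt_id t).mul_const (e i)).sub_const (x i)
    have h2 := hp.mul h1
    simp only [dirDeriv_mul_X, map_add, map_mul, eval_X, eval_C]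
    exact h2

/-- Chain rule along the complex line `s ↦ s e - x`. -/
theorem hasDerivAt_cline {n : ℕ} (e x : Fin n → ℝ) (p : MvPolynomial (Fin n) ℝ) (z : ℂ) :
    HasDerivAt (fun s : ℂ => aeval (fun i => s * (e i : ℂ) - (x i : ℂ)) p)
      (aeval (fun i => z * (e i : ℂ) - (x i : ℂ)) (dirDeriv e p)) z := by
  induction p using MvPolynomial.induction_on with
  | C a =>
    simp only [dirDeriv_C, aeval_C, map_zero]
    exact hasDerivAt_const z _
  | add p q hp hq =>
    simp only [dirDeriv_add, map_add]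
    exact hp.add hq
  | mul_X p i hp =>
    have h1 : HasDerivAt (fun s : ℂ => s * (e i : ℂ) - (x i : ℂ)) (e i : ℂ) z := by
      simpa using ((hasDerivAt_id z).mul_const (e i : ℂ)).sub_const (x i : ℂ)
    have h2 := hp.mul h1
    simp only [dirDeriv_mul_X, map_add, map_mul, aeval_X, aeval_C]
    exact h2

theorem eq_C_of_isHomogeneous_zero {n : ℕ} (p : MvPolynomial (Fin n) ℝ)
    (h : p.IsHomogeneous 0) : p = C (coeff 0 p) := by
  rw [← totalDegree_zero_iff_isHomogeneous] at h
  exact totalDegree_eq_zero_iff_eq_C.1 h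

/-- A homogeneous polynomial of degree one is a linear form. -/
theorem linear_of_homogeneous {n : ℕ} (L : MvPolynomial (Fin n) ℝ) (hL : L.IsHomogeneous 1) :
    ∃ c : Fin n → ℝ, L = ∑ a, C (c a) * X a := by
  refine ⟨fun a => coeff 0 (pderiv a L), ?_⟩
  have h1 := hL.sum_X_mul_pderiv
  rw [one_smul] at h1
  conv_lhs => rw [← h1]
  refine Finset.sum_congr rfl fun a _ => ?_
  have h2 : (pderiv a L).IsHomogeneous 0 := hL.pderiv
  conv_lhs => rw [eq_C_of_isHomogeneous_zero _ h2]
  ring

/-- A homogeneous polynomial of degree two is a quadratic form with a symmetric matrix. -/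
theorem quadratic_of_homogeneous {n : ℕ} (Q : MvPolynomial (Fin n) ℝ) (hQ : Q.IsHomogeneous 2) :
    ∃ M : Matrix (Fin n) (Fin n) ℝ, M.IsSymm ∧ Q = ∑ a, ∑ b, C (M a b) * X a * X b := by
  have hlin : ∀ b, ∃ c : Fin n → ℝ, pderiv b Q = ∑ a, C (c a) * X a := fun b =>
    linear_of_homogeneous _ hQ.pderiv
  choose N hN using hlin
  have h1 := hQ.sum_X_mul_pderiv
  have h2 : (2 : ℝ) • Q = ∑ b, ∑ a, C (N b a) * X a * X b := by
    have h3 : (2 : ℝ) • Q = (2 : ℕ) • Q := by
      rw [← Nat.cast_smul_eq_nsmul ℝ]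
      norm_num
    rw [h3, ← h1]
    refine Finset.sum_congr rfl fun b _ => ?_
    rw [hN b, Finset.mul_sum]
    exact Finset.sum_congr rfl fun a _ => by ring
  have h4 : Q = ∑ b, ∑ a, C (N b a / 2) * X a * X b := by
    have h5 : Q = (1 / 2 : ℝ) • ((2 : ℝ) • Q) := by
      rw [smul_smul]
      norm_num
    rw [h5, h2, Finset.smul_sum]
    refine Finset.sum_congr rfl fun b _ => ?_
    rw [Finset.smul_sum]
    refine Finset.sum_congr rfl fun a _ => ?_
    rw [smul_eq_C_mul, ← mul_assoc, ← mul_assoc, ← C_mul]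
    congr 3
    ring
  refine ⟨Matrix.of fun a b => (N a b + N b a) / 4, Matrix.IsSymm.ext fun a b => by
    simp only [Matrix.of_apply]
    ring, ?_⟩
  have h6 : ∑ a, ∑ b, C ((N a b + N b a) / 4) * X a * X b
      = (1 / 2 : ℝ) • (∑ a, ∑ b, C (N a b / 2) * X a * X b)
        + (1 / 2 : ℝ) • (∑ a, ∑ b, C (N b a / 2) * X a * X b) := by
    rw [← smul_add, ← Finset.sum_add_distrib, Finset.smul_sum]
    refine Finset.sum_congr rfl fun a _ => ?_
    rw [← Finset.sum_add_distrib, Finset.smul_sum]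
    refine Finset.sum_congr rfl fun b _ => ?_
    rw [smul_eq_C_mul, ← add_mul, ← add_mul, ← C_add, ← mul_assoc, ← mul_assoc, ← C_mul]
    congr 3
    ring
  simp only [Matrix.of_apply]
  rw [h6]
  have h7 : ∑ a, ∑ b, C (N a b / 2) * X a * X b = Q := by
    conv_rhs => rw [h4]
    refine Finset.sum_congr rfl fun a _ => Finset.sum_congr rfl fun b _ => ?_
    ring
  have h8 : ∑ a, ∑ b, C (N b a / 2) * X a * X b = Q := by
    rw [Finset.sum_comm]
    exact h4.symm
  rw [h7, h8, ← add_smul]
  norm_num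

end Vale.Agent.Lib.P256
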