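import Mathlib
import Vale.Agent.Lib.P256.Poly
import Vale.Agent.Lib.P256.Core
import Vale.Agent.Lib.P256.CRoots

namespace Vale.Agent.Lib.P256

open Finset MvPolynomial Matrix

theorem quad_line {R : Type*} [CommRing R] {n : ℕ} (m : Fin n → Fin n → R) (e x : Fin n → R)
    (z : R) :
    ∑ a, ∑ b, m a b * (z * e a - x a) * (z * e b - x b)
      = z ^ 2 * (∑ a, ∑ b, m a b * e a * e b)
        - z * (∑ a, ∑ b, m a b * e a * x b + ∑ a, ∑ b, m a b * x a * e b)
        + ∑ a, ∑ b, m a b * x a * x b := by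
  simp only [Finset.mul_sum, ← Finset.sum_add_distrib, ← Finset.sum_sub_distrib]
  refine Finset.sum_congr rfl fun a _ => Finset.sum_congr rfl fun b _ => ?_
  ring

/-- A real quadratic with positive leading coefficient and only real complex roots has
nonnegative discriminant. -/
theorem disc_nonneg (α β γ : ℝ) (hα : 0 < α)
    (h : ∀ z : ℂ, (α : ℂ) * z ^ 2 - 2 * (β : ℂ) * z + (γ : ℂ) = 0 → z.im = 0) :
    0 ≤ β ^ 2 - α * γ := by
  by_contra hD
  push Not at hD
  set r := Real.sqrt (α * γ - β ^ 2) with hr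
  have hr0 : 0 < r := Real.sqrt_pos.2 (by linarith)
  have hr2 : r ^ 2 = α * γ - β ^ 2 := Real.sq_sqrt (by linarith)
  have hα' : (α : ℂ) ≠ 0 := by exact_mod_cast hα.ne'
  have hr2' : (r : ℂ) ^ 2 = (α : ℂ) * (γ : ℂ) - (β : ℂ) ^ 2 := by exact_mod_cast hr2
  set z : ℂ := ((β : ℂ) + (r : ℂ) * Complex.I) / (α : ℂ) with hz
  have hαz : (α : ℂ) * z = (β : ℂ) + (r : ℂ) * Complex.I := by
    rw [hz]
    field_simp
  have hroot : (α : ℂ) * z ^ 2 - 2 * (β : ℂ) * z + (γ : ℂ) = 0 := by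
    apply mul_left_cancel₀ hα'
    linear_combination ((α : ℂ) * z - β + r * Complex.I) * hαz
      + (r : ℂ) ^ 2 * Complex.I_sq - hr2'
  have him := h z hroot
  rw [hz, Complex.div_ofReal_im] at him
  simp at him
  rcases him with h1 | h1 <;> linarith

/-- Data of a hyperbolic quadratic form along the lines `t e - x`. -/
theorem quad_data {n : ℕ} (e : Fin n → ℝ) (Q : MvPolynomial (Fin n) ℝ)
    (hQ2 : Q.IsHomogeneous 2) (hQ : IsHyperbolic Q e) :
    ∃ (α : ℝ) (bv : Fin n → ℝ) (G : Matrix (Fin n) (Fin n) ℝ), 0 < α ∧ G.IsSymm ∧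
      (∀ x : Fin n → ℝ, 0 ≤ x ⬝ᵥ G *ᵥ x) ∧
      (∀ (x : Fin n → ℝ) (t : ℝ), eval (fun i => t * e i - x i) Q
        = α * (t - ((∑ a, bv a * x a) / α + sgn true * (Real.sqrt (x ⬝ᵥ G *ᵥ x) / α)))
            * (t - ((∑ a, bv a * x a) / α + sgn false * (Real.sqrt (x ⬝ᵥ G *ᵥ x) / α)))) ∧
      ∀ (x : Fin n → ℝ) (z : ℂ), aeval (fun i => z * (e i : ℂ) - (x i : ℂ)) Q
        = (α : ℂ) * (z - (((∑ a, bv a * x a) / α
              + sgn true * (Real.sqrt (x ⬝ᵥ G *ᵥ x) / α) : ℝ) : ℂ))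
            * (z - (((∑ a, bv a * x a) / α
              + sgn false * (Real.sqrt (x ⬝ᵥ G *ᵥ x) / α) : ℝ) : ℂ)) := by
  obtain ⟨M, hM, hQM⟩ := quadratic_of_homogeneous Q hQ2
  set α := ∑ a, ∑ b, M a b * e a * e b with hα
  set bv : Fin n → ℝ := fun b => ∑ a, M a b * e a with hbv
  set γ : (Fin n → ℝ) → ℝ := fun x => ∑ a, ∑ b, M a b * x a * x b with hγ
  have hβ1 : ∀ x : Fin n → ℝ, ∑ a, ∑ b, M a b * e a * x b = ∑ b, bv b * x b := by
    intro x
    rw [Finset.sum_comm]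
    refine Finset.sum_congr rfl fun b _ => ?_
    simp only [hbv]
    rw [Finset.sum_mul]
  have hβ2 : ∀ x : Fin n → ℝ, ∑ a, ∑ b, M a b * x a * e b = ∑ b, bv b * x b := by
    intro x
    refine Finset.sum_congr rfl fun a _ => ?_
    simp only [hbv]
    rw [Finset.sum_mul]
    refine Finset.sum_congr rfl fun b _ => ?_
    rw [hM.apply b a]
    ring
  have hevalR : ∀ f : Fin n → ℝ, eval f Q = ∑ a, ∑ b, M a b * f a * f b := by
    intro f
    rw [hQM]
    simp [map_sum]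
  have hevalC : ∀ f : Fin n → ℂ, aeval f Q = ∑ a, ∑ b, (M a b : ℂ) * f a * f b := by
    intro f
    rw [hQM]
    simp [map_sum]
  have hαpos : 0 < α := by
    have := hQ.2.1
    rwa [hevalR] at this
  have hlineR : ∀ (x : Fin n → ℝ) (t : ℝ), eval (fun i => t * e i - x i) Q
      = α * t ^ 2 - 2 * (∑ b, bv b * x b) * t + γ x := by
    intro x t
    have hq := quad_line (fun a b => M a b) e x t
    beta_reduce at hq
    have hγx : γ x = ∑ a, ∑ b, M a b * x a * x b := rfl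
    rw [hevalR, hq, ← hα, hβ1 x, hβ2 x, hγx]
    ring
  have hlineC : ∀ (x : Fin n → ℝ) (z : ℂ), aeval (fun i => z * (e i : ℂ) - (x i : ℂ)) Q
      = (α : ℂ) * z ^ 2 - 2 * ((∑ b, bv b * x b : ℝ) : ℂ) * z + (γ x : ℂ) := by
    intro x z
    have hq := quad_line (fun a b => (M a b : ℂ)) (fun a => (e a : ℂ)) (fun a => (x a : ℂ)) z
    beta_reduce at hq
    rw [hevalC, hq]
    have c1 : ∑ a, ∑ b, (M a b : ℂ) * (e a : ℂ) * (e b : ℂ) = (α : ℂ) := by
      rw [hα]
      push_cast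
      rfl
    have c2 : ∑ a, ∑ b, (M a b : ℂ) * (e a : ℂ) * (x b : ℂ) = ((∑ b, bv b * x b : ℝ) : ℂ) := by
      rw [← hβ1]
      push_cast
      rfl
    have c3 : ∑ a, ∑ b, (M a b : ℂ) * (x a : ℂ) * (e b : ℂ) = ((∑ b, bv b * x b : ℝ) : ℂ) := by
      rw [← hβ2]
      push_cast
      rfl
    have c4 : ∑ a, ∑ b, (M a b : ℂ) * (x a : ℂ) * (x b : ℂ) = (γ x : ℂ) := by
      simp only [hγ]
      push_cast
      rfl
    rw [c1, c2, c3, c4]
    ring
  have hD : ∀ x : Fin n → ℝ, 0 ≤ (∑ b, bv b * x b) ^ 2 - α * γ x := by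
    intro x
    apply disc_nonneg α _ (γ x) hαpos
    intro z hz
    apply hQ.2.2 x z
    rw [hlineC]
    exact hz
  have hG : ∀ x : Fin n → ℝ, x ⬝ᵥ (Matrix.of fun a b => bv a * bv b - α * M a b) *ᵥ x
      = (∑ b, bv b * x b) ^ 2 - α * γ x := by
    intro x
    simp only [dotProduct, Matrix.mulVec, Matrix.of_apply, hγ]
    rw [sq, Finset.sum_mul_sum]
    simp only [Finset.mul_sum, ← Finset.sum_sub_distrib]
    refine Finset.sum_congr rfl fun a _ => Finset.sum_congr rfl fun b _ => ?_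
    ring
  have hsum : ∀ x : Fin n → ℝ,
      α * (((∑ b, bv b * x b) / α + sgn true * (Real.sqrt ((∑ b, bv b * x b) ^ 2 - α * γ x) / α))
        + ((∑ b, bv b * x b) / α + sgn false * (Real.sqrt ((∑ b, bv b * x b) ^ 2 - α * γ x) / α)))
        = 2 * ∑ b, bv b * x b := by
    intro x
    simp only [sgn, if_true, Bool.false_eq_true, if_false]
    field_simp
    ring
  have hprod : ∀ x : Fin n → ℝ,
      α * ((∑ b, bv b * x b) / α + sgn true * (Real.sqrt ((∑ b, bv b * x b) ^ 2 - α * γ x) / α))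
        * ((∑ b, bv b * x b) / α + sgn false * (Real.sqrt ((∑ b, bv b * x b) ^ 2 - α * γ x) / α))
        = γ x := by
    intro x
    have hs2 : Real.sqrt ((∑ b, bv b * x b) ^ 2 - α * γ x) ^ 2
        = (∑ b, bv b * x b) ^ 2 - α * γ x := Real.sq_sqrt (hD x)
    simp only [sgn, if_true, Bool.false_eq_true, if_false]
    field_simp
    linear_combination (-1 : ℝ) * hs2
  refine ⟨α, bv, Matrix.of fun a b => bv a * bv b - α * M a b, hαpos,
    Matrix.IsSymm.ext fun a b => ?_, fun x => ?_, fun x t => ?_, fun x z => ?_⟩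
  · simp only [Matrix.of_apply]
    rw [hM.apply a b]
    ring
  · rw [hG]
    exact hD x
  · rw [hlineR, hG]
    linear_combination t * hsum x - hprod x
  · rw [hlineC, hG]
    have h1 := congrArg (fun r : ℝ => (r : ℂ)) (hsum x)
    have h2 := congrArg (fun r : ℝ => (r : ℂ)) (hprod x)
    push_cast at h1 h2 ⊢
    linear_combination z * h1 - h2

/-- Data of a linear form positive at `e` along the lines `t e - x`. -/
theorem lin_data {n : ℕ} (e : Fin n → ℝ) (L : MvPolynomial (Fin n) ℝ)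
    (hL1 : L.IsHomogeneous 1) (hL : 0 < eval e L) :
    ∃ (ε : ℝ) (c : Fin n → ℝ), 0 < ε ∧
      (∀ (x : Fin n → ℝ) (t : ℝ), eval (fun i => t * e i - x i) L
        = ε * (t - (∑ a, c a * x a) / ε)) ∧
      ∀ (x : Fin n → ℝ) (z : ℂ), aeval (fun i => z * (e i : ℂ) - (x i : ℂ)) L
        = (ε : ℂ) * (z - (((∑ a, c a * x a) / ε : ℝ) : ℂ)) := by
  obtain ⟨c, hc⟩ := linear_of_homogeneous L hL1
  have heval : ∀ f : Fin n → ℝ, eval f L = ∑ a, c a * f a := by
    intro f
    rw [hc]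
    simp [map_sum]
  have hevalC : ∀ f : Fin n → ℂ, aeval f L = ∑ a, (c a : ℂ) * f a := by
    intro f
    rw [hc]
    simp [map_sum]
  have hpos : 0 < ∑ a, c a * e a := by rwa [heval] at hL
  refine ⟨∑ a, c a * e a, c, hpos, fun x t => ?_, fun x z => ?_⟩
  · rw [heval]
    have h1 : ∑ a, c a * (t * e a - x a) = t * (∑ a, c a * e a) - ∑ a, c a * x a := by
      rw [Finset.mul_sum, ← Finset.sum_sub_distrib]
      exact Finset.sum_congr rfl fun a _ => by ring
    rw [h1]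
    field_simp
  · rw [hevalC]
    have h1 : ∑ a, (c a : ℂ) * (z * (e a : ℂ) - (x a : ℂ))
        = z * ((∑ a, c a * e a : ℝ) : ℂ) - ((∑ a, c a * x a : ℝ) : ℂ) := by
      push_cast
      rw [Finset.mul_sum, ← Finset.sum_sub_distrib]
      exact Finset.sum_congr rfl fun a _ => by ring
    rw [h1]
    have hne : (∑ a, (c a : ℂ) * (e a : ℂ)) ≠ 0 := by
      have h2 : ((∑ a, c a * e a : ℝ) : ℂ) ≠ 0 := by exact_mod_cast hpos.ne'
      push_cast at h2
      exact h2
    push_cast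
    field_simp

theorem shadow_empty {n : ℕ} : IsSpectrahedralShadow (∅ : Set (Fin n → ℝ)) := by
  refine ⟨0, 1, -1, fun _ => 0, fun _ => 0, by simp [Matrix.IsSymm], fun _ => by
    simp [Matrix.IsSymm], fun _ => by simp [Matrix.IsSymm], ?_⟩
  ext x
  simp only [Set.mem_empty_iff_false, Set.mem_ofPred_eq, false_iff, not_exists]
  intro u hu
  have h1 := (Matrix.posSemidef_iff_dotProduct_mulVec.1 hu).2 (fun _ => 1)
  simp [dotProduct, Matrix.mulVec] at h1
  linarith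

/-- Root data of the product along the lines `t e - x`, real and complex. -/
theorem eig_data {n k m : ℕ} (e : Fin n → ℝ) (Q : Fin k → MvPolynomial (Fin n) ℝ)
    (L : Fin m → MvPolynomial (Fin n) ℝ)
    (hQ : ∀ i, (Q i).IsHomogeneous 2 ∧ IsHyperbolic (Q i) e)
    (hL : ∀ j, (L j).IsHomogeneous 1 ∧ IsHyperbolic (L j) e) :
    ∃ (α : Fin k → ℝ) (bv : Fin k → Fin n → ℝ) (G : Fin k → Matrix (Fin n) (Fin n) ℝ)
      (ε : Fin m → ℝ) (c : Fin m → Fin n → ℝ),
      (∀ i, 0 < α i) ∧ (∀ i, (G i).IsSymm) ∧ (∀ i (x : Fin n → ℝ), 0 ≤ x ⬝ᵥ G i *ᵥ x) ∧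
      (∀ j, 0 < ε j) ∧
      (∀ (x : Fin n → ℝ) (s : ℝ), eval (fun i => s * e i - x i) ((∏ i, Q i) * ∏ j, L j)
        = ((∏ i, α i) * ∏ j, ε j) * gpoly (eigOf (fun i => (∑ a, bv i a * x a) / α i)
            (fun i => Real.sqrt (x ⬝ᵥ G i *ᵥ x) / α i) (fun j => (∑ a, c j a * x a) / ε j)) s) ∧
      ∀ (x : Fin n → ℝ) (z : ℂ),
        aeval (fun i => z * (e i : ℂ) - (x i : ℂ)) ((∏ i, Q i) * ∏ j, L j)
        = (((∏ i, α i) * ∏ j, ε j : ℝ) : ℂ) * cgpoly (eigOf (fun i => (∑ a, bv i a * x a) / α i)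
            (fun i => Real.sqrt (x ⬝ᵥ G i *ᵥ x) / α i) (fun j => (∑ a, c j a * x a) / ε j)) z := by
  choose α bv G hα hGs hGp hQe hQc using fun i => quad_data e (Q i) (hQ i).1 (hQ i).2
  choose ε c hε hLe hLc using fun j => lin_data e (L j) (hL j).1 (hL j).2.2.1
  refine ⟨α, bv, G, ε, c, hα, hGs, hGp, hε, fun x s => ?_, fun x z => ?_⟩
  · rw [map_mul, map_prod, map_prod]
    simp only [hQe, hLe]
    unfold gpoly
    rw [Fintype.prod_sum_type, Fintype.prod_prod_type]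
    simp only [Fintype.prod_bool, eigOf, Sum.elim_inl, Sum.elim_inr]
    rw [Finset.prod_mul_distrib, Finset.prod_mul_distrib, Finset.prod_mul_distrib,
      Finset.prod_mul_distrib]
    ring
  · rw [map_mul, map_prod, map_prod]
    simp only [hQc, hLc]
    unfold cgpoly
    rw [Fintype.prod_sum_type, Fintype.prod_prod_type]
    simp only [Fintype.prod_bool, eigOf, Sum.elim_inl, Sum.elim_inr]
    rw [Finset.prod_mul_distrib, Finset.prod_mul_distrib, Finset.prod_mul_distrib,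
      Finset.prod_mul_distrib]
    push_cast
    ring

/-- Main statement: the cone of the derivative is a spectrahedral shadow. -/
theorem main_shadow {n k m : ℕ} (e : Fin n → ℝ) (Q : Fin k → MvPolynomial (Fin n) ℝ)
    (L : Fin m → MvPolynomial (Fin n) ℝ)
    (hQ : ∀ i, (Q i).IsHomogeneous 2 ∧ IsHyperbolic (Q i) e)
    (hL : ∀ j, (L j).IsHomogeneous 1 ∧ IsHyperbolic (L j) e) :
    IsSpectrahedralShadow (hypCone (dirDeriv e ((∏ i, Q i) * ∏ j, L j)) e) := by
  by_cases hne : Nonempty (EigIdx k m)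
  · obtain ⟨α, bv, G, ε, c, hα, hGs, hGp, hε, hval, -⟩ := eig_data e Q L hQ hL
    have hcone : hypCone (dirDeriv e ((∏ i, Q i) * ∏ j, L j)) e
        = {x : Fin n → ℝ | FormNonneg (eigOf (fun i => (∑ a, bv i a * x a) / α i)
            (fun i => Real.sqrt (x ⬝ᵥ G i *ᵥ x) / α i) (fun j => (∑ a, c j a * x a) / ε j))} := by
      ext x
      set lam := eigOf (fun i => (∑ a, bv i a * x a) / α i)
        (fun i => Real.sqrt (x ⬝ᵥ G i *ᵥ x) / α i) (fun j => (∑ a, c j a * x a) / ε j) with hlam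
      have hder : ∀ t : ℝ, eval (fun i => t * e i - x i)
          (dirDeriv e ((∏ i, Q i) * ∏ j, L j)) = ((∏ i, α i) * ∏ j, ε j) * dgpoly lam t := by
        intro t
        have h1 := hasDerivAt_line e x ((∏ i, Q i) * ∏ j, L j) t
        have h2 : HasDerivAt (fun s : ℝ => ((∏ i, α i) * ∏ j, ε j) * gpoly lam s)
            (((∏ i, α i) * ∏ j, ε j) * dgpoly lam t) t :=
          (hasDerivAt_gpoly lam t).const_mul _
        have h3 : (fun s : ℝ => eval (fun i => s * e i - x i) ((∏ i, Q i) * ∏ j, L j))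
            = fun s => ((∏ i, α i) * ∏ j, ε j) * gpoly lam s := funext (hval x)
        rw [h3] at h1
        exact h1.unique h2
      have hC : ((∏ i, α i) * ∏ j, ε j) ≠ 0 :=
        (mul_pos (Finset.prod_pos fun i _ => hα i) (Finset.prod_pos fun j _ => hε j)).ne'
      simp only [hypCone, Set.mem_ofPred_eq, hder, mul_eq_zero, hC, false_or]
      exact roots_nonneg_iff_form lam
    rw [hcone]
    exact core_shadow α hα bv G hGs hGp ε c
  · rw [not_nonempty_iff, isEmpty_sum, isEmpty_prod] at hne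
    obtain ⟨h1 | h1, h2⟩ := hne
    · have hp : dirDeriv e ((∏ i, Q i) * ∏ j, L j) = 0 := by
        simp [dirDeriv, Finset.univ_eq_empty]
      have hcone : hypCone (dirDeriv e ((∏ i, Q i) * ∏ j, L j)) e = ∅ := by
        rw [hp]
        ext x
        simp only [hypCone, Set.mem_ofPred_eq, map_zero, forall_const,
          Set.mem_empty_iff_false, iff_false, not_forall]
        exact ⟨-1, by norm_num⟩
      rw [hcone]
      exact shadow_empty
    · exact absurd (inferInstance : Nonempty Bool) (not_nonempty_iff.2 h1)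

/-- The derivative of the product is again hyperbolic with respect to `e`. -/
theorem main_hyperbolic {n k m : ℕ} (hkm : 0 < k + m) (e : Fin n → ℝ)
    (Q : Fin k → MvPolynomial (Fin n) ℝ) (L : Fin m → MvPolynomial (Fin n) ℝ)
    (hQ : ∀ i, (Q i).IsHomogeneous 2 ∧ IsHyperbolic (Q i) e)
    (hL : ∀ j, (L j).IsHomogeneous 1 ∧ IsHyperbolic (L j) e) :
    IsHyperbolic (dirDeriv e ((∏ i, Q i) * ∏ j, L j)) e := by
  have hne : Nonempty (EigIdx k m) := by
    rcases Nat.eq_zero_or_pos k with hk | hk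
    · have hm : 0 < m := by omega
      exact ⟨Sum.inr ⟨0, hm⟩⟩
    · exact ⟨Sum.inl (⟨0, hk⟩, true)⟩
  have hp : ((∏ i, Q i) * ∏ j, L j).IsHomogeneous (∑ _i : Fin k, 2 + ∑ _j : Fin m, 1) :=
    (IsHomogeneous.prod Finset.univ Q (fun _ => 2) (fun i _ => (hQ i).1)).mul
      (IsHomogeneous.prod Finset.univ L (fun _ => 1) (fun j _ => (hL j).1))
  have hd : 0 < ∑ _i : Fin k, 2 + ∑ _j : Fin m, 1 := by
    simp only [Finset.sum_const, Finset.card_univ, Fintype.card_fin, smul_eq_mul]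
    omega
  refine ⟨⟨0 + (∑ _i : Fin k, 2 + ∑ _j : Fin m, 1 - 1), ?_⟩, ?_, ?_⟩
  · unfold dirDeriv
    exact IsHomogeneous.sum Finset.univ _ _ fun i _ => (isHomogeneous_C _ _).mul hp.pderiv
  · have hE := congrArg (eval e) hp.sum_X_mul_pderiv
    have h1 : eval e (dirDeriv e ((∏ i, Q i) * ∏ j, L j))
        = eval e (∑ i, X i * pderiv i ((∏ i, Q i) * ∏ j, L j)) := by
      simp [dirDeriv, map_sum]
    rw [h1, hE]
    have hpos : 0 < eval e ((∏ i, Q i) * ∏ j, L j) := by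
      rw [map_mul, map_prod, map_prod]
      exact mul_pos (Finset.prod_pos fun i _ => (hQ i).2.2.1)
        (Finset.prod_pos fun j _ => (hL j).2.2.1)
    rw [map_nsmul, nsmul_eq_mul]
    exact mul_pos (by exact_mod_cast hd) hpos
  · intro x z hz
    by_contra him
    obtain ⟨α, bv, G, ε, c, hα, hGs, hGp, hε, -, hval⟩ := eig_data e Q L hQ hL
    set lam := eigOf (fun i => (∑ a, bv i a * x a) / α i)
      (fun i => Real.sqrt (x ⬝ᵥ G i *ᵥ x) / α i) (fun j => (∑ a, c j a * x a) / ε j) with hlam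
    have h1 := hasDerivAt_cline e x ((∏ i, Q i) * ∏ j, L j) z
    have h2 : HasDerivAt (fun s : ℂ => (((∏ i, α i) * ∏ j, ε j : ℝ) : ℂ) * cgpoly lam s)
        ((((∏ i, α i) * ∏ j, ε j : ℝ) : ℂ) * cdgpoly lam z) z :=
      (hasDerivAt_cgpoly lam z).const_mul _
    have h3 : (fun s : ℂ => aeval (fun i => s * (e i : ℂ) - (x i : ℂ)) ((∏ i, Q i) * ∏ j, L j))
        = fun s => (((∏ i, α i) * ∏ j, ε j : ℝ) : ℂ) * cgpoly lam s := funext (hval x)
    rw [h3] at h1
    have h4 := h1.unique h2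
    rw [h4] at hz
    have hC : ((∏ i, α i) * ∏ j, ε j) ≠ 0 :=
      (mul_pos (Finset.prod_pos fun i _ => hα i) (Finset.prod_pos fun j _ => hε j)).ne'
    have hC' : (((∏ i, α i) * ∏ j, ε j : ℝ) : ℂ) ≠ 0 := by exact_mod_cast hC
    exact cdgpoly_ne_zero lam z him ((mul_eq_zero.1 hz).resolve_left hC')

end Vale.Agent.Lib.P256
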